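import Mathlib

/-!
Row 47 (S0066): definitions of the pattern and of the host matrix, and the rigidity argument.
-/

set_option autoImplicit false

namespace Crest.Agent.R47

/-- The pattern, indexed by naturals below 66. -/
def H (i j : ℕ) : Bool :=
  if i = 0 ∨ j = 0 then true
  else if 63 ≤ i ∧ 63 ≤ j then !(i == 64 && j == 64)
  else if 60 ≤ i ∧ i ≤ 62 ∧ 60 ≤ j ∧ j ≤ 62 then i != j
  else decide (i * j % 67 < 33)

theorem H_symm (i j : ℕ) : H i j = H j i := by
  unfold H
  by_cases h1 : i = 0 ∨ j = 0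
  · rw [if_pos h1, if_pos h1.symm]
  · rw [if_neg h1, if_neg (fun h => h1 (Or.symm h))]
    by_cases h2 : 63 ≤ i ∧ 63 ≤ j
    · rw [if_pos h2, if_pos h2.symm, Bool.and_comm]
    · rw [if_neg h2, if_neg (fun h => h2 (And.symm h))]
      by_cases h3 : 60 ≤ i ∧ i ≤ 62 ∧ 60 ≤ j ∧ j ≤ 62
      · rw [if_pos h3, if_pos (by omega), bne_comm]
      · rw [if_neg h3, if_neg (by omega), Nat.mul_comm]

theorem H_zero_left (j : ℕ) : H 0 j = true := by simp [H]

theorem H_zero_right (i : ℕ) : H i 0 = true := by simp [H]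

theorem H_distinct_aux : ∀ j < 66, ∀ j' < 66,
    ((List.range 61).all fun i => H i j == H i j') = true → j = j' := by
  decide +kernel

theorem H_distinct {j j' : ℕ} (hj : j < 66) (hj' : j' < 66)
    (h : ∀ i, i ≤ 60 → H i j = H i j') : j = j' := by
  apply H_distinct_aux j hj j' hj'
  rw [List.all_eq_true]
  intro i hi
  rw [List.mem_range] at hi
  simpa using h i (by omega)

theorem H_special {k k' : ℕ} (hk : k < 3) (hk' : k' < 3) :
    H (63 + k) (63 + k') = true ↔ ¬ (k = 1 ∧ k' = 1) := by
  interval_cases k <;> interval_cases k' <;> simp [H]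

/-- number of core blocks -/
def Cn (h : ℕ) : ℕ := 63 * (4 * h + 1)

/-- number of blocks -/
def NB (h : ℕ) : ℕ := Cn h + (2 * h + 3)

/-- index type of rows and columns -/
def Idx (h : ℕ) : Type := Fin (NB h) × Fin (2 ^ h)

instance (h : ℕ) : Fintype (Idx h) := inferInstanceAs (Fintype (Fin (NB h) × Fin (2 ^ h)))

theorem card_Idx (h : ℕ) : Fintype.card (Idx h) = NB h * 2 ^ h := by
  show Fintype.card (Fin (NB h) × Fin (2 ^ h)) = _
  simp

variable {h : ℕ}

/-- block number -/
def Idx.blk (a : Idx h) : ℕ := (a.1 : ℕ)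
/-- index inside the block -/
def Idx.ix (a : Idx h) : ℕ := (a.2 : ℕ)

theorem Idx.blk_lt (a : Idx h) : a.blk < NB h := a.1.2
theorem Idx.ix_lt (a : Idx h) : a.ix < 2 ^ h := a.2.2

theorem Idx.ext' {a b : Idx h} (h1 : a.blk = b.blk) (h2 : a.ix = b.ix) : a = b :=
  Prod.ext (Fin.ext h1) (Fin.ext h2)

def k1 (a : Idx h) : ℕ :=
  if a.blk ≤ Cn h then 0 else if a.blk ≤ Cn h + 2 * h then 1
  else if a.blk = Cn h + 2 * h + 2 then 2 else 3

def k2 (a : Idx h) : ℕ := if a.blk ≤ Cn h then a.blk else a.ix

def k3 (a : Idx h) : ℕ := if a.blk ≤ Cn h then a.ix else a.blk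

def key (a : Idx h) : ℕ ×ₗ ℕ ×ₗ ℕ := toLex (k1 a, toLex (k2 a, k3 a))

theorem key_inj : Function.Injective (key (h := h)) := by
  intro a b hab
  simp only [key, toLex_inj, Prod.mk.injEq] at hab
  obtain ⟨h1, h2, h3⟩ := hab
  unfold k1 at h1
  unfold k2 at h2
  unfold k3 at h3
  apply Idx.ext'
  · split_ifs at h1 h2 h3 <;> omega
  · split_ifs at h1 h2 h3 <;> omega

instance : LinearOrder (Idx h) := LinearOrder.lift' key key_inj

theorem lt_iff (a b : Idx h) : a < b ↔
    k1 a < k1 b ∨ (k1 a = k1 b ∧ (k2 a < k2 b ∨ (k2 a = k2 b ∧ k3 a < k3 b))) := by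
  show key a < key b ↔ _
  simp only [key, Prod.Lex.toLex_lt_toLex]

theorem k_spec (a : Idx h) :
    (a.blk ≤ Cn h ∧ k1 a = 0 ∧ k2 a = a.blk ∧ k3 a = a.ix) ∨
    (Cn h < a.blk ∧ k2 a = a.ix ∧ k3 a = a.blk ∧
      ((a.blk ≤ Cn h + 2 * h ∧ k1 a = 1) ∨ (a.blk = Cn h + 2 * h + 2 ∧ k1 a = 2) ∨
        (a.blk = Cn h + 2 * h + 1 ∧ k1 a = 3))) := by
  have := a.blk_lt
  unfold NB at this
  unfold k1 k2 k3
  split_ifs <;> omega

theorem core_of_lt {a b : Idx h} (hab : a < b) (hb : b.blk < Cn h) : a.blk ≤ b.blk := by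
  rw [lt_iff] at hab
  have := k_spec a
  have := k_spec b
  omega

/-- level of a node block -/
def lev (h s : ℕ) : ℕ := if s ≤ h then s else if s ≤ 2 * h + 1 then 2 * h + 1 - s else h

theorem lev_le (h s : ℕ) : lev h s ≤ h := by
  unfold lev; split_ifs <;> omega

/-- address of a node -/
def adr (h s y : ℕ) : ℕ := if s = 2 * h + 2 then 2 ^ h else y

/-- same dyadic interval at level `k` -/
def same (h k x y : ℕ) : Prop := k = 0 ∨ x / 2 ^ (h - k) = y / 2 ^ (h - k)

theorem same_symm {k x y : ℕ} (hs : same h k x y) : same h k y x := by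
  rcases hs with hs | hs
  · exact Or.inl hs
  · exact Or.inr hs.symm

theorem same_trans {k x y z : ℕ} (h1 : same h k x y) (h2 : same h k y z) : same h k x z := by
  rcases h1 with h1 | h1
  · exact Or.inl h1
  · rcases h2 with h2 | h2
    · exact Or.inl h2
    · exact Or.inr (h1.trans h2)

theorem same_mono {k k' x y : ℕ} (hk : k' ≤ k) (hs : same h k x y) : same h k' x y := by
  rcases hs with hs | hs
  · left; omega
  · right
    obtain ⟨d, hd⟩ : ∃ d, h - k' = (h - k) + d := ⟨h - k' - (h - k), by omega⟩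
    rw [hd, pow_add, ← Nat.div_div_eq_div_mul, ← Nat.div_div_eq_div_mul, hs]

/-- slot of a node -/
def Idx.sg (a : Idx h) : ℕ := a.blk - Cn h
/-- address -/
def Idx.ad (a : Idx h) : ℕ := adr h a.sg a.ix
/-- level -/
def Idx.lv (a : Idx h) : ℕ := lev h a.sg
/-- last bit of the prefix -/
def Idx.bt (a : Idx h) : ℕ := a.ad / 2 ^ (h - a.lv) % 2

theorem Idx.bt_lt (a : Idx h) : a.bt < 2 := Nat.mod_lt _ (by norm_num)

/-- comparability of nodes -/
def comp (a b : Idx h) : Prop := same h (min a.lv b.lv) a.ad b.ad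

theorem comp_symm {a b : Idx h} (hc : comp a b) : comp b a := by
  unfold comp at *
  rw [min_comm]
  exact same_symm hc

theorem no_hexagon {a b c u v w : Idx h} (hav : comp a v) (haw : comp a w) (hbu : comp b u)
    (hbw : comp b w) (hcu : comp c u) (hcv : comp c v) :
    comp a u ∨ comp b v ∨ comp c w := by
  unfold comp at *
  obtain ⟨k, hk⟩ : ∃ k, k = min (min (min a.lv u.lv) (min b.lv v.lv)) (min c.lv w.lv) := ⟨_, rfl⟩
  have h1 : same h k a.ad v.ad := same_mono (by omega) hav
  have h2 : same h k a.ad w.ad := same_mono (by omega) haw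
  have h3 : same h k b.ad u.ad := same_mono (by omega) hbu
  have h4 : same h k b.ad w.ad := same_mono (by omega) hbw
  have h5 : same h k c.ad u.ad := same_mono (by omega) hcu
  have h6 : same h k c.ad v.ad := same_mono (by omega) hcv
  have hau : same h k a.ad u.ad := same_trans (same_trans h1 (same_symm h6)) h5
  have hbv : same h k b.ad v.ad := same_trans (same_trans h3 (same_symm h5)) h6
  have hcw : same h k c.ad w.ad := same_trans (same_trans h6 (same_symm h1)) h2
  have : k = min a.lv u.lv ∨ k = min b.lv v.lv ∨ k = min c.lv w.lv := by omega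
  rcases this with h' | h' | h'
  · left; rwa [← h']
  · right; left; rwa [← h']
  · right; right; rwa [← h']

/-- type predicates: core number, special index, slot, bit -/
abbrev Ty : Type := ℕ → ℕ → ℕ → ℕ → Prop

/-- the entry of the host matrix -/
def E (R C : Ty) (a b : Idx h) : Prop :=
  if a.blk < Cn h then
    if b.blk < Cn h then a.blk / 63 = b.blk / 63 ∧ H (a.blk % 63) (b.blk % 63) = true
    else ∃ k, k < 3 ∧ C (a.blk / 63) k b.sg b.bt ∧ H (a.blk % 63) (63 + k) = true
  else
    if b.blk < Cn h then ∃ k, k < 3 ∧ R (b.blk / 63) k a.sg a.bt ∧ H (63 + k) (b.blk % 63) = true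
    else comp a b

theorem E_symm (R C : Ty) (a b : Idx h) : E R C a b ↔ E C R b a := by
  unfold E
  by_cases ha : a.blk < Cn h <;> by_cases hb : b.blk < Cn h <;>
    simp only [ha, hb, if_true, if_false]
  · rw [H_symm, eq_comm]
  · simp only [H_symm (a.blk % 63)]
  · simp only [H_symm (b.blk % 63)]
  · exact ⟨comp_symm, comp_symm⟩

/-- an ordered copy of the pattern in a matrix indexed by `Idx h` -/
structure IsCopy (M : Idx h → Idx h → Prop) (f g : ℕ → Idx h) : Prop where
  mf : ∀ i j, i < j → j < 66 → f i < f j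
  mg : ∀ i j, i < j → j < 66 → g i < g j
  ent : ∀ i j, i < 66 → j < 66 → (M (f i) (g j) ↔ H i j = true)

theorem IsCopy.transpose {R C : Ty} {f g : ℕ → Idx h} (hc : IsCopy (E R C) f g) :
    IsCopy (E C R) g f :=
  ⟨hc.mg, hc.mf, fun i j hi hj => by rw [← E_symm, hc.ent j i hj hi, H_symm]⟩

theorem mono_eq_id {n : ℕ} {φ : ℕ → ℕ} (h1 : ∀ i j, i < j → j < n → φ i < φ j)
    (h2 : ∀ j, j < n → φ j < n) : ∀ j, j < n → φ j = j := by
  let ψ : Fin n → Fin n := fun j => ⟨φ j, h2 j j.2⟩
  have hψ : StrictMono ψ := fun i j hij => h1 i j hij j.2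
  intro j hj
  have := hψ.apply_eq (x := ⟨j, hj⟩)
  exact congrArg Fin.val this

/-- the properties of the type predicates used for rigidity -/
structure Good (h : ℕ) (C : Ty) : Prop where
  uniq : ∀ t k k' s b, C t k s b → C t k' s b → k = k'
  supp : ∀ t k s b, C t k s b → s = 0 ∨ s = 2 * h + 1 ∨ s = t / 4 ∨ s = 2 * h + 1 - t / 4 ∨
    s = t / 4 + 1 ∨ s = 2 * h - t / 4 ∨ s = 2 * h + 2

theorem rigid_one {R C : Ty} (hC : Good h C) {f g : ℕ → Idx h} (hc : IsCopy (E R C) f g)
    (hp : ∀ i, i ≤ 60 → (f i).blk < Cn h) :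
    (∀ j, j < 63 → (g j).blk < Cn h ∧ (g j).blk = 63 * ((f 0).blk / 63) + j) ∧
    (∀ j, 63 ≤ j → j < 66 → Cn h ≤ (g j).blk ∧
      ∃ k, k < 3 ∧ C ((f 0).blk / 63) k (g j).sg (g j).bt) := by
  classical
  obtain ⟨t, ht⟩ : ∃ t, t = (f 0).blk / 63 := ⟨_, rfl⟩
  rw [← ht]
  -- every column is a core column of `t` or a typed node
  have hcol : ∀ j, j < 66 → ((g j).blk < Cn h ∧ (g j).blk / 63 = t) ∨
      (Cn h ≤ (g j).blk ∧ ∃ k, k < 3 ∧ C t k (g j).sg (g j).bt) := by
    intro j hj
    have := (hc.ent 0 j (by norm_num) hj).2 (H_zero_left j)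
    unfold E at this
    rw [if_pos (hp 0 (by norm_num))] at this
    by_cases hb : (g j).blk < Cn h
    · rw [if_pos hb] at this
      exact Or.inl ⟨hb, by rw [ht]; exact this.1.symm⟩
    · rw [if_neg hb] at this
      obtain ⟨k, hk, hk2, -⟩ := this
      exact Or.inr ⟨by omega, k, hk, by rw [ht]; exact hk2⟩
  -- the first column is a core column
  have hg0 : (g 0).blk < Cn h := by
    by_contra hg0
    have hall : ∀ j, j < 66 → ¬ (g j).blk < Cn h := by
      intro j hj hlt
      rcases Nat.eq_zero_or_pos j with rfl | hj0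
      · exact hg0 hlt
      · have := core_of_lt (hc.mg 0 j hj0 hj) hlt
        omega
    let S : Finset ℕ := {0, 2 * h + 1, t / 4, 2 * h + 1 - t / 4, t / 4 + 1, 2 * h - t / 4,
      2 * h + 2}
    have hS : S.card ≤ 7 := by
      refine (Finset.card_insert_le _ _).trans ?_
      have := Finset.card_le_six (a := 2 * h + 1) (b := t / 4) (c := 2 * h + 1 - t / 4)
        (d := t / 4 + 1) (e := 2 * h - t / 4) (f := 2 * h + 2)
      omega
    have hcard : (S ×ˢ Finset.range 2).card < (Finset.range 66).card := by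
      rw [Finset.card_product, Finset.card_range, Finset.card_range]; omega
    obtain ⟨j, hj, j', hj', hne, heq⟩ := Finset.exists_ne_map_eq_of_card_lt_of_maps_to hcard
      (f := fun j => ((g j).sg, (g j).bt)) (by
        intro j hj
        have hj : j < 66 := by simpa using hj
        rcases hcol j hj with h1 | ⟨-, k, -, h2⟩
        · exact absurd h1.1 (hall j hj)
        · have := hC.supp _ _ _ _ h2
          simp only [Finset.coe_product, Set.mem_prod, Finset.mem_coe, Finset.mem_range]
          refine ⟨?_, (g j).bt_lt⟩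
          simp only [S, Finset.mem_insert, Finset.mem_singleton]
          exact this)
    rw [Finset.mem_range] at hj hj'
    simp only [Prod.mk.injEq] at heq
    apply hne
    apply H_distinct hj hj'
    intro i hi
    have e1 := hc.ent i j (by omega) hj
    have e2 := hc.ent i j' (by omega) hj'
    unfold E at e1 e2
    rw [if_pos (hp i hi), if_neg (hall j hj)] at e1
    rw [if_pos (hp i hi), if_neg (hall j' hj')] at e2
    rw [heq.1, heq.2] at e1
    rw [Bool.eq_iff_iff, ← e1, ← e2]
  have hg0t : (g 0).blk / 63 = t := by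
    rcases hcol 0 (by norm_num) with h1 | h1
    · exact h1.2
    · omega
  have hrow : ∀ i, i ≤ 60 → (f i).blk / 63 = t := by
    intro i hi
    have := (hc.ent i 0 (by omega) (by norm_num)).2 (H_zero_right i)
    unfold E at this
    rw [if_pos (hp i hi), if_pos hg0] at this
    rw [this.1, hg0t]
  -- the class of a column
  have hcls : ∀ j, ∃ c, j < 66 → c < 66 ∧ (∀ i, i ≤ 60 → H i j = H ((f i).blk % 63) c) ∧
      ((g j).blk < Cn h → c = (g j).blk % 63) ∧ (Cn h ≤ (g j).blk → 63 ≤ c) := by
    intro j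
    by_cases hj : j < 66
    · rcases hcol j hj with ⟨h1, h2⟩ | ⟨h1, k, hk, h2⟩
      · refine ⟨(g j).blk % 63, fun _ => ⟨by omega, fun i hi => ?_, fun _ => rfl, by omega⟩⟩
        have e1 := hc.ent i j (by omega) hj
        unfold E at e1
        rw [if_pos (hp i hi), if_pos h1, hrow i hi, h2] at e1
        rw [Bool.eq_iff_iff, ← e1]
        simp
      · refine ⟨63 + k, fun _ => ⟨by omega, fun i hi => ?_, by omega, by omega⟩⟩
        have e1 := hc.ent i j (by omega) hj
        unfold E at e1
        rw [if_pos (hp i hi), if_neg (by omega), hrow i hi] at e1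
        rw [Bool.eq_iff_iff, ← e1]
        constructor
        · rintro ⟨k', -, h3, h4⟩
          rwa [hC.uniq _ _ _ _ _ h2 h3]
        · intro h4
          exact ⟨k, hk, h2, h4⟩
    · exact ⟨0, fun h' => absurd h' hj⟩
  choose φ hφ using hcls
  have hinj : ∀ j j', j < 66 → j' < 66 → φ j = φ j' → j = j' := by
    intro j j' hj hj' he
    apply H_distinct hj hj'
    intro i hi
    rw [(hφ j hj).2.1 i hi, (hφ j' hj').2.1 i hi, he]
  have hcore : ∀ j, j < 63 → (g j).blk < Cn h := by
    intro j hj
    by_contra hn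
    have hge : ∀ j', j ≤ j' → j' < 66 → 63 ≤ φ j' ∧ φ j' < 66 := by
      intro j' h1 h2
      refine ⟨(hφ j' h2).2.2.2 ?_, (hφ j' h2).1⟩
      rcases Nat.eq_or_lt_of_le h1 with rfl | h1
      · omega
      · by_contra h3
        have := core_of_lt (hc.mg j j' h1 h2) (by omega)
        omega
    have a0 := hge j le_rfl (by omega)
    have a1 := hge 63 (by omega) (by omega)
    have a2 := hge 64 (by omega) (by omega)
    have a3 := hge 65 (by omega) (by omega)
    have b1 := hinj j 63 (by omega) (by omega)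
    have b2 := hinj j 64 (by omega) (by omega)
    have b3 := hinj j 65 (by omega) (by omega)
    have b4 := hinj 63 64 (by omega) (by omega)
    have b5 := hinj 63 65 (by omega) (by omega)
    have b6 := hinj 64 65 (by omega) (by omega)
    omega
  have hgt : ∀ j, j < 66 → (g j).blk < Cn h → (g j).blk / 63 = t := by
    intro j hj h1
    rcases hcol j hj with h2 | h2
    · exact h2.2
    · omega
  have hid : ∀ j, j < 63 → φ j = j := by
    apply mono_eq_id
    · intro i j hij hj
      have e1 := (hφ i (by omega)).2.2.1 (hcore i (by omega))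
      have e2 := (hφ j (by omega)).2.2.1 (hcore j hj)
      have e3 := core_of_lt (hc.mg i j hij (by omega)) (hcore j hj)
      have e4 := hgt i (by omega) (hcore i (by omega))
      have e5 := hgt j (by omega) (hcore j hj)
      have e6 := hinj i j (by omega) (by omega)
      omega
    · intro j hj
      have e2 := (hφ j (by omega)).2.2.1 (hcore j hj)
      omega
  refine ⟨fun j hj => ⟨hcore j hj, ?_⟩, fun j h1 h2 => ?_⟩
  · have e2 := (hφ j (by omega)).2.2.1 (hcore j hj)
    have e5 := hgt j (by omega) (hcore j hj)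
    have e6 := hid j hj
    omega
  · rcases hcol j h2 with h3 | h3
    · exfalso
      have e2 := (hφ j h2).2.2.1 h3.1
      have e3 := hid (φ j) (by omega)
      have e4 := hinj (φ j) j (by omega) h2 e3
      omega
    · exact h3

theorem rigid {R C : Ty} (hR : Good h R) (hC : Good h C) {f g : ℕ → Idx h}
    (hc : IsCopy (E R C) f g) :
    ∃ t, t < 4 * h + 1 ∧ ∀ k, k < 3 → (Cn h ≤ (f (63 + k)).blk ∧
      R t k (f (63 + k)).sg (f (63 + k)).bt) ∧ (Cn h ≤ (g (63 + k)).blk ∧
      C t k (g (63 + k)).sg (g (63 + k)).bt) := by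
  -- rows or columns up to 60 are core
  have key : (∀ i, i ≤ 60 → (f i).blk < Cn h) ∧ (∀ i, i ≤ 60 → (g i).blk < Cn h) := by
    have hor : (f 60).blk < Cn h ∨ (g 60).blk < Cn h := by
      by_contra hn
      push Not at hn
      have hf : ∀ i, 60 ≤ i → i < 66 → ¬ (f i).blk < Cn h := by
        intro i h1 h2 h3
        rcases Nat.eq_or_lt_of_le h1 with rfl | h1
        · omega
        · have := core_of_lt (hc.mf 60 i h1 h2) h3
          omega
      have hg : ∀ i, 60 ≤ i → i < 66 → ¬ (g i).blk < Cn h := by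
        intro i h1 h2 h3
        rcases Nat.eq_or_lt_of_le h1 with rfl | h1
        · omega
        · have := core_of_lt (hc.mg 60 i h1 h2) h3
          omega
      have he : ∀ i j, 60 ≤ i → i < 66 → 60 ≤ j → j < 66 →
          (comp (f i) (g j) ↔ H i j = true) := by
        intro i j h1 h2 h3 h4
        have := hc.ent i j h2 h4
        unfold E at this
        rwa [if_neg (hf i h1 h2), if_neg (hg j h3 h4)] at this
      have := no_hexagon (a := f 60) (b := f 61) (c := f 62) (u := g 60) (v := g 61) (w := g 62)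
        ((he 60 61 (by omega) (by omega) (by omega) (by omega)).2 (by decide))
        ((he 60 62 (by omega) (by omega) (by omega) (by omega)).2 (by decide))
        ((he 61 60 (by omega) (by omega) (by omega) (by omega)).2 (by decide))
        ((he 61 62 (by omega) (by omega) (by omega) (by omega)).2 (by decide))
        ((he 62 60 (by omega) (by omega) (by omega) (by omega)).2 (by decide))
        ((he 62 61 (by omega) (by omega) (by omega) (by omega)).2 (by decide))
      rw [he 60 60 (by omega) (by omega) (by omega) (by omega),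
        he 61 61 (by omega) (by omega) (by omega) (by omega),
        he 62 62 (by omega) (by omega) (by omega) (by omega)] at this
      revert this
      decide
    rcases hor with h1 | h1
    · have hf : ∀ i, i ≤ 60 → (f i).blk < Cn h := by
        intro i hi
        rcases Nat.eq_or_lt_of_le hi with rfl | hi
        · exact h1
        · have := core_of_lt (hc.mf i 60 hi (by omega)) h1
          omega
      exact ⟨hf, fun i hi => ((rigid_one hC hc hf).1 i (by omega)).1⟩
    · have hg : ∀ i, i ≤ 60 → (g i).blk < Cn h := by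
        intro i hi
        rcases Nat.eq_or_lt_of_le hi with rfl | hi
        · exact h1
        · have := core_of_lt (hc.mg i 60 hi (by omega)) h1
          omega
      exact ⟨fun i hi => ((rigid_one hR hc.transpose hg).1 i (by omega)).1, hg⟩
  obtain ⟨g1, g2⟩ := rigid_one hC hc key.1
  obtain ⟨f1, f2⟩ := rigid_one hR hc.transpose key.2
  have ht : (g 0).blk / 63 = (f 0).blk / 63 := by
    have := (g1 0 (by omega)).2
    omega
  rw [ht] at f1 f2
  obtain ⟨t, ht'⟩ : ∃ t, t = (f 0).blk / 63 := ⟨_, rfl⟩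
  rw [← ht'] at f1 f2 g1 g2
  refine ⟨t, ?_, fun k hk => ⟨?_, ?_⟩⟩
  · have := key.1 0 (by omega)
    unfold Cn at this
    omega
  · obtain ⟨h1, k', hk', h2⟩ := f2 (63 + k) (by omega) (by omega)
    refine ⟨h1, ?_⟩
    have : 63 + k = 63 + k' := by
      apply H_distinct (by omega) (by omega)
      intro j hj
      have e1 := hc.ent (63 + k) j (by omega) (by omega)
      unfold E at e1
      obtain ⟨g3, g4⟩ := g1 j (by omega)
      have g5 : (g j).blk / 63 = t := by omega
      have g6 : (g j).blk % 63 = j := by omega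
      rw [if_neg (by omega), if_pos g3, g5, g6] at e1
      rw [H_symm j, H_symm j, Bool.eq_iff_iff, ← e1]
      constructor
      · rintro ⟨k'', -, h3, h4⟩
        rwa [hR.uniq _ _ _ _ _ h2 h3]
      · intro h4
        exact ⟨k', hk', h2, h4⟩
    have : k = k' := by omega
    rwa [this] at h2 ⊢
  · obtain ⟨h1, k', hk', h2⟩ := g2 (63 + k) (by omega) (by omega)
    refine ⟨h1, ?_⟩
    have : 63 + k = 63 + k' := by
      apply H_distinct (by omega) (by omega)
      intro i hi
      have e1 := hc.ent i (63 + k) (by omega) (by omega)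
      unfold E at e1
      obtain ⟨g3, g4⟩ := f1 i (by omega)
      have g5 : (f i).blk / 63 = t := by omega
      have g6 : (f i).blk % 63 = i := by omega
      rw [if_pos g3, if_neg (by omega), g5, g6] at e1
      rw [Bool.eq_iff_iff, ← e1]
      constructor
      · rintro ⟨k'', -, h3, h4⟩
        rwa [hC.uniq _ _ _ _ _ h2 h3]
      · intro h4
        exact ⟨k', hk', h2, h4⟩
    have : k = k' := by omega
    rwa [this] at h2 ⊢

end Crest.Agent.R47
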