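import Crest.Agent.R47.Basic

/-!
Row 47 (S0066): the constraints, the absence of copies off the diagonal, and the forcing argument.
-/

set_option autoImplicit false

namespace Crest.Agent.R47

variable {h : ℕ}

/-- row types -/
def RT (h : ℕ) : Ty := fun t k s b =>
  (t = 4 * h ∧ ((k = 0 ∧ s = h) ∨ (k = 1 ∧ s = 2 * h + 2) ∨ (k = 2 ∧ s = 2 * h + 1))) ∨
  (t < 4 * h ∧ t % 4 = 0 ∧ ((k = 0 ∧ s = t / 4) ∨ (k = 2 ∧ s = 2 * h + 1 - t / 4) ∨
    (k = 1 ∧ (s = t / 4 + 1 ∨ s = 2 * h - t / 4)))) ∨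
  (t < 4 * h ∧ t % 4 = 1 ∧ ((k = 0 ∧ s = 0) ∨ (k = 2 ∧ s = 2 * h + 1) ∨
    (k = 1 ∧ 1 ≤ t / 4 ∧ (s = t / 4 ∨ s = 2 * h + 1 - t / 4)))) ∨
  (t < 4 * h ∧ 2 ≤ t % 4 ∧ ((k = 0 ∧ s = t / 4) ∨ (k = 2 ∧ s = 2 * h + 1 - t / 4) ∨
    (k = 1 ∧ (s = t / 4 + 1 ∨ s = 2 * h - t / 4) ∧ b + 2 = t % 4)))

/-- column types -/
def CT (h : ℕ) : Ty := fun t k s b =>
  (t = 4 * h ∧ ((k = 0 ∧ s = 0) ∨ (k = 1 ∧ s = h) ∨ (k = 2 ∧ s = 2 * h + 1))) ∨
  (t < 4 * h ∧ t % 4 = 1 ∧ ((k = 0 ∧ s = t / 4) ∨ (k = 2 ∧ s = 2 * h + 1 - t / 4) ∨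
    (k = 1 ∧ (s = t / 4 + 1 ∨ s = 2 * h - t / 4)))) ∨
  (t < 4 * h ∧ t % 4 = 0 ∧ ((k = 0 ∧ s = 0) ∨ (k = 2 ∧ s = 2 * h + 1) ∨
    (k = 1 ∧ 1 ≤ t / 4 ∧ (s = t / 4 ∨ s = 2 * h + 1 - t / 4)))) ∨
  (t < 4 * h ∧ 2 ≤ t % 4 ∧ ((k = 0 ∧ s = t / 4) ∨ (k = 2 ∧ s = 2 * h + 1 - t / 4) ∨
    (k = 1 ∧ (s = t / 4 + 1 ∨ s = 2 * h - t / 4) ∧ b + 2 = t % 4)))

theorem good_RT (hh : 1 ≤ h) : Good h (RT h) := by
  constructor
  · intro t k k' s b h1 h2
    unfold RT at h1 h2
    omega
  · intro t k s b h1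
    unfold RT at h1
    omega

theorem good_CT (hh : 1 ≤ h) : Good h (CT h) := by
  constructor
  · intro t k k' s b h1 h2
    unfold CT at h1 h2
    omega
  · intro t k s b h1
    unfold CT at h1
    omega

theorem lev_spec (h s : ℕ) : (s ≤ h ∧ lev h s = s) ∨
    (h < s ∧ s ≤ 2 * h + 1 ∧ lev h s = 2 * h + 1 - s) ∨ (2 * h + 1 < s ∧ lev h s = h) := by
  unfold lev
  split_ifs <;> omega

theorem ad_eq {a : Idx h} (ha : a.sg ≠ 2 * h + 2) : a.ad = a.ix := by
  unfold Idx.ad adr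
  rw [if_neg ha]

theorem ix_le_of_lt {a b : Idx h} (hab : a < b) (ha1 : Cn h < a.blk) (ha2 : a.blk ≤ Cn h + 2 * h)
    (hb1 : Cn h < b.blk) (hb2 : b.blk ≤ Cn h + 2 * h) : a.ix ≤ b.ix := by
  rw [lt_iff] at hab
  have := k_spec a
  have := k_spec b
  omega

theorem same_sandwich {k x y z w : ℕ} (h1 : x ≤ y) (h2 : y ≤ z) (h3 : same h k x w)
    (h4 : same h k z w) : same h k y w := by
  rcases h3 with h3 | h3
  · exact Or.inl h3
  · rcases h4 with h4 | h4
    · exact Or.inl h4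
    · right
      have a1 : x / 2 ^ (h - k) ≤ y / 2 ^ (h - k) := Nat.div_le_div_right h1
      have a2 : y / 2 ^ (h - k) ≤ z / 2 ^ (h - k) := Nat.div_le_div_right h2
      omega

theorem same_refine {l x y : ℕ} (hl : l < h) (hx : x < 2 ^ h) (hy : y < 2 ^ h)
    (hs : same h l x y) (hb : x / 2 ^ (h - (l + 1)) % 2 = y / 2 ^ (h - (l + 1)) % 2) :
    same h (l + 1) x y := by
  right
  have hs' : x / 2 ^ (h - l) = y / 2 ^ (h - l) := by
    rcases hs with hs | hs
    · subst hs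
      rw [Nat.sub_zero, Nat.div_eq_of_lt hx, Nat.div_eq_of_lt hy]
    · exact hs
  have : h - l = (h - (l + 1)) + 1 := by omega
  rw [this, pow_succ, ← Nat.div_div_eq_div_mul, ← Nat.div_div_eq_div_mul] at hs'
  omega

/-- every copy in the host uses the same address in special row 63 and special column 64 -/
theorem copy_diag (hh : 1 ≤ h) {f g : ℕ → Idx h} (hc : IsCopy (E (RT h) (CT h)) f g) :
    (f 63).blk = Cn h + h ∧ (g 64).blk = Cn h + h ∧ (f 63).ix = (g 64).ix := by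
  obtain ⟨t, ht, hty⟩ := rigid (good_RT hh) (good_CT hh) hc
  obtain ⟨⟨r0, R0⟩, c0, C0⟩ := hty 0 (by norm_num)
  obtain ⟨⟨r1, R1⟩, c1, C1⟩ := hty 1 (by norm_num)
  obtain ⟨⟨r2, R2⟩, c2, C2⟩ := hty 2 (by norm_num)
  have he : ∀ k k', k < 3 → k' < 3 →
      (comp (f (63 + k)) (g (63 + k')) ↔ ¬ (k = 1 ∧ k' = 1)) := by
    intro k k' hk hk'
    have := hc.ent (63 + k) (63 + k') (by omega) (by omega)
    unfold E at this
    have a1 := (hty k hk).1.1
    have a2 := (hty k' hk').2.1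
    rwa [if_neg (by omega), if_neg (by omega), H_special hk hk'] at this
  have e00 := (he 0 0 (by omega) (by omega)).2 (by omega)
  have e01 := (he 0 1 (by omega) (by omega)).2 (by omega)
  have e10 := (he 1 0 (by omega) (by omega)).2 (by omega)
  have e12 := (he 1 2 (by omega) (by omega)).2 (by omega)
  have e21 := (he 2 1 (by omega) (by omega)).2 (by omega)
  have e11 : ¬ comp (f (63 + 1)) (g (63 + 1)) := fun h' =>
    (he 1 1 (by omega) (by omega)).1 h' ⟨rfl, rfl⟩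
  have o1 := hc.mf 63 64 (by omega) (by omega)
  have o2 := hc.mf 64 65 (by omega) (by omega)
  have o3 := hc.mg 63 64 (by omega) (by omega)
  have o4 := hc.mg 64 65 (by omega) (by omega)
  norm_num only at r0 R0 c0 C0 r1 R1 c1 C1 r2 R2 c2 C2 e00 e01 e10 e12 e21 e11
  generalize f 63 = a0 at *
  generalize f 64 = a1 at *
  generalize f 65 = a2 at *
  generalize g 63 = b0 at *
  generalize g 64 = b1 at *
  generalize g 65 = b2 at *
  have sa0 : a0.blk = Cn h + a0.sg := by unfold Idx.sg; omega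
  have sa1 : a1.blk = Cn h + a1.sg := by unfold Idx.sg; omega
  have sa2 : a2.blk = Cn h + a2.sg := by unfold Idx.sg; omega
  have sb0 : b0.blk = Cn h + b0.sg := by unfold Idx.sg; omega
  have sb1 : b1.blk = Cn h + b1.sg := by unfold Idx.sg; omega
  have sb2 : b2.blk = Cn h + b2.sg := by unfold Idx.sg; omega
  have levL : ∀ s l, l ≤ h → (s = l ∨ s = 2 * h + 1 - l) → lev h s = l := by
    intro s l h1 h2
    have := lev_spec h s
    omega
  unfold comp Idx.lv at e00 e01 e10 e12 e21 e11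
  unfold RT at R0 R1 R2
  unfold CT at C0 C1 C2
  clear hty he hc
  by_cases h4 : t = 4 * h
  · have s1 : a0.sg = h := by clear * - R0 h4; omega
    have s2 : b1.sg = h := by clear * - C1 h4; omega
    clear R0 R1 R2 C0 C1 C2
    refine ⟨by omega, by omega, ?_⟩
    rw [levL a0.sg h le_rfl (Or.inl s1), levL b1.sg h le_rfl (Or.inl s2), min_self,
      ad_eq (by omega), ad_eq (by omega)] at e01
    rcases e01 with e01 | e01
    · omega
    · simpa using e01
  · exfalso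
    apply e11
    have ht4 : t % 4 = 0 ∨ t % 4 = 1 ∨ 2 ≤ t % 4 := by clear * -; omega
    have hl : t / 4 < h := by clear * - ht h4; omega
    rcases ht4 with ht4 | ht4 | ht4
    · have s0 : a0.sg = t / 4 := by clear * - R0 h4 ht4; omega
      have s2 : a2.sg = 2 * h + 1 - t / 4 := by clear * - R2 h4 ht4; omega
      have s1 : a1.sg = t / 4 + 1 ∨ a1.sg = 2 * h - t / 4 := by clear * - R1 h4 ht4; omega
      have s3 : 1 ≤ t / 4 ∧ (b1.sg = t / 4 ∨ b1.sg = 2 * h + 1 - t / 4) := by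
        clear * - C1 h4 ht4; omega
      clear R0 R1 R2 C0 C1 C2
      generalize t / 4 = l at *
      have l0 := levL a0.sg l hl.le (Or.inl s0)
      have l2 := levL a2.sg l hl.le (Or.inr s2)
      have l1 := levL a1.sg (l + 1) hl (by omega)
      have l3 := levL b1.sg l hl.le s3.2
      rw [l0, l3, min_self, ad_eq (a := a0) (by omega)] at e01
      rw [l2, l3, min_self, ad_eq (a := a2) (by omega)] at e21
      rw [l1, l3, min_eq_right (Nat.le_succ l), ad_eq (a := a1) (by omega)]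
      exact same_sandwich (ix_le_of_lt o1 (by omega) (by omega) (by omega) (by omega))
        (ix_le_of_lt o2 (by omega) (by omega) (by omega) (by omega)) e01 e21
    · have s0 : b0.sg = t / 4 := by clear * - C0 h4 ht4; omega
      have s2 : b2.sg = 2 * h + 1 - t / 4 := by clear * - C2 h4 ht4; omega
      have s1 : b1.sg = t / 4 + 1 ∨ b1.sg = 2 * h - t / 4 := by clear * - C1 h4 ht4; omega
      have s3 : 1 ≤ t / 4 ∧ (a1.sg = t / 4 ∨ a1.sg = 2 * h + 1 - t / 4) := by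
        clear * - R1 h4 ht4; omega
      clear R0 R1 R2 C0 C1 C2
      generalize t / 4 = l at *
      have l0 := levL b0.sg l hl.le (Or.inl s0)
      have l2 := levL b2.sg l hl.le (Or.inr s2)
      have l1 := levL b1.sg (l + 1) hl (by omega)
      have l3 := levL a1.sg l hl.le s3.2
      rw [l0, l3, min_self, ad_eq (a := b0) (by omega)] at e10
      rw [l2, l3, min_self, ad_eq (a := b2) (by omega)] at e12
      rw [l1, l3, min_eq_left (Nat.le_succ l), ad_eq (a := b1) (by omega)]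
      exact same_symm (same_sandwich (ix_le_of_lt o3 (by omega) (by omega) (by omega) (by omega))
        (ix_le_of_lt o4 (by omega) (by omega) (by omega) (by omega)) (same_symm e10)
        (same_symm e12))
    · have s0 : a0.sg = t / 4 := by clear * - R0 h4 ht4; omega
      have s0' : b0.sg = t / 4 := by clear * - C0 h4 ht4; omega
      have s1 : (a1.sg = t / 4 + 1 ∨ a1.sg = 2 * h - t / 4) ∧ a1.bt + 2 = t % 4 := by
        clear * - R1 h4 ht4; omega
      have s1' : (b1.sg = t / 4 + 1 ∨ b1.sg = 2 * h - t / 4) ∧ b1.bt + 2 = t % 4 := by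
        clear * - C1 h4 ht4; omega
      clear R0 R1 R2 C0 C1 C2
      have hb : a1.bt = b1.bt := by omega
      replace s1 := s1.1
      replace s1' := s1'.1
      generalize t / 4 = l at *
      have l0 := levL a0.sg l hl.le (Or.inl s0)
      have l0' := levL b0.sg l hl.le (Or.inl s0')
      have l1 := levL a1.sg (l + 1) hl (by omega)
      have l2 := levL b1.sg (l + 1) hl (by omega)
      rw [l0, l0', min_self] at e00
      rw [l0, l2, min_eq_left (Nat.le_succ l)] at e01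
      rw [l1, l0', min_eq_right (Nat.le_succ l)] at e10
      rw [l1, l2, min_self]
      unfold Idx.bt Idx.lv at hb
      rw [l1, l2] at hb
      have hs := same_trans e10 (same_trans (same_symm e00) e01)
      rw [ad_eq (a := a1) (by omega), ad_eq (a := b1) (by omega)] at hs hb ⊢
      exact same_refine hl a1.ix_lt b1.ix_lt hs hb

/-- blocks whose index is the address -/
def isAdr (h β : ℕ) : Prop := Cn h < β ∧ β ≤ Cn h + 2 * h

/-- the data of a system of representatives -/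
structure Rep (M : Idx h → Idx h → Prop) (x : ℕ) (r c : ℕ → Idx h) : Prop where
  hr : ∀ β, β < NB h → (r β).blk = β
  hc : ∀ β, β < NB h → (c β).blk = β
  hrx : ∀ β, isAdr h β → (r β).ix = x
  hcx : ∀ β, isAdr h β → (c β).ix = x
  hM : ∀ β β', β < NB h → β' < NB h → ¬ (isAdr h β ∧ isAdr h β') →
      (M (r β) (c β') ↔ E (RT h) (CT h) (r β) (c β'))

theorem sg_of_blk {q : ℕ → Idx h} (hq : ∀ β, β < NB h → (q β).blk = β) (s : ℕ)
    (hs : s < 2 * h + 3) : (q (Cn h + s)).sg = s := by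
  have hNB : NB h = Cn h + (2 * h + 3) := rfl
  unfold Idx.sg
  rw [hq _ (by omega)]; omega

theorem use_core (hh : 1 ≤ h) {M : Idx h → Idx h → Prop} {x : ℕ} {r c : ℕ → Idx h}
    (rep : Rep M x r c) (hno : ∀ f g, ¬ IsCopy M f g) (t : ℕ) (ht : t < 4 * h + 1)
    (σ τ : ℕ → ℕ) (hσ : ∀ k, k < 3 → σ k < 2 * h + 3) (hτ : ∀ k, k < 3 → τ k < 2 * h + 3)
    (hR : ∀ k, k < 3 → RT h t k (σ k) (r (Cn h + σ k)).bt)
    (hC : ∀ k, k < 3 → CT h t k (τ k) (c (Cn h + τ k)).bt)
    (o1 : r (Cn h + σ 0) < r (Cn h + σ 1)) (o2 : r (Cn h + σ 1) < r (Cn h + σ 2))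
    (o3 : c (Cn h + τ 0) < c (Cn h + τ 1)) (o4 : c (Cn h + τ 1) < c (Cn h + τ 2))
    (hent : ∀ k k', k < 3 → k' < 3 → ¬ (k = 1 ∧ k' = 1) →
      M (r (Cn h + σ k)) (c (Cn h + τ k'))) :
    M (r (Cn h + σ 1)) (c (Cn h + τ 1)) := by
  obtain ⟨hr, hc, hrx, hcx, hM⟩ := rep
  have hNB : NB h = Cn h + (2 * h + 3) := rfl
  have hCn : Cn h = 63 * (4 * h + 1) := rfl
  have hrs := sg_of_blk hr
  have hcs := sg_of_blk hc
  by_contra hcen
  have mono : ∀ (q : ℕ → Idx h) (ρ : ℕ → ℕ), (∀ β, β < NB h → (q β).blk = β) →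
      (∀ k, k < 3 → ρ k < 2 * h + 3) → q (Cn h + ρ 0) < q (Cn h + ρ 1) →
      q (Cn h + ρ 1) < q (Cn h + ρ 2) → ∀ i j, i < j → j < 66 →
      q (if i < 63 then 63 * t + i else Cn h + ρ (i - 63)) <
        q (if j < 63 then 63 * t + j else Cn h + ρ (j - 63)) := by
    intro q ρ hq hρ p1 p2 i j hij hj
    by_cases hi : i < 63
    · rw [if_pos hi]
      have b1 := hq (63 * t + i) (by omega)
      by_cases hj' : j < 63
      · rw [if_pos hj']
        have b2 := hq (63 * t + j) (by omega)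
        rw [lt_iff]
        have := k_spec (q (63 * t + i))
        have := k_spec (q (63 * t + j))
        omega
      · rw [if_neg hj']
        have b3 := hρ (j - 63) (by omega)
        have b2 := hq (Cn h + ρ (j - 63)) (by omega)
        rw [lt_iff]
        have := k_spec (q (63 * t + i))
        have := k_spec (q (Cn h + ρ (j - 63)))
        omega
    · rw [if_neg hi, if_neg (by omega)]
      have : (i = 63 ∧ j = 64) ∨ (i = 64 ∧ j = 65) ∨ (i = 63 ∧ j = 65) := by omega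
      rcases this with ⟨rfl, rfl⟩ | ⟨rfl, rfl⟩ | ⟨rfl, rfl⟩
      · exact p1
      · exact p2
      · exact p1.trans p2
  apply hno (fun i => r (if i < 63 then 63 * t + i else Cn h + σ (i - 63)))
    (fun j => c (if j < 63 then 63 * t + j else Cn h + τ (j - 63)))
  refine ⟨mono r σ hr hσ o1 o2, mono c τ hc hτ o3 o4, ?_⟩
  intro i j hi hj
  by_cases hi' : i < 63
  · have b1 := hr (63 * t + i) (by omega)
    have d1 : (63 * t + i) / 63 = t := by omega
    have d2 : (63 * t + i) % 63 = i := by omega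
    by_cases hj' : j < 63
    · have b2 := hc (63 * t + j) (by omega)
      have d3 : (63 * t + j) / 63 = t := by omega
      have d4 : (63 * t + j) % 63 = j := by omega
      rw [if_pos hi', if_pos hj', hM _ _ (by omega) (by omega) (by unfold isAdr; omega)]
      unfold E
      rw [b1, b2, if_pos (by omega), if_pos (by omega), d1, d2, d3, d4]
      simp
    · obtain ⟨k, rfl⟩ : ∃ k, j = 63 + k := ⟨j - 63, by omega⟩
      have b3 := hτ k (by omega)
      have b2 := hc (Cn h + τ k) (by omega)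
      rw [if_pos hi', if_neg hj', Nat.add_sub_cancel_left,
        hM _ _ (by omega) (by omega) (by unfold isAdr; omega)]
      unfold E
      rw [b1, b2, if_pos (by omega), if_neg (by omega), d1, d2, hcs _ b3]
      constructor
      · rintro ⟨k', -, h3, h4⟩
        rwa [(good_CT hh).uniq _ _ _ _ _ (hC k (by omega)) h3]
      · intro h4
        exact ⟨k, by omega, hC k (by omega), h4⟩
  · obtain ⟨k, rfl⟩ : ∃ k, i = 63 + k := ⟨i - 63, by omega⟩
    have b3 := hσ k (by omega)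
    have b1 := hr (Cn h + σ k) (by omega)
    by_cases hj' : j < 63
    · have b2 := hc (63 * t + j) (by omega)
      have d3 : (63 * t + j) / 63 = t := by omega
      have d4 : (63 * t + j) % 63 = j := by omega
      rw [if_neg hi', if_pos hj', Nat.add_sub_cancel_left,
        hM _ _ (by omega) (by omega) (by unfold isAdr; omega)]
      unfold E
      rw [b1, b2, if_neg (by omega), if_pos (by omega), d3, d4, hrs _ b3]
      constructor
      · rintro ⟨k', -, h3, h4⟩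
        rwa [(good_RT hh).uniq _ _ _ _ _ (hR k (by omega)) h3]
      · intro h4
        exact ⟨k, by omega, hR k (by omega), h4⟩
    · obtain ⟨k', rfl⟩ : ∃ k', j = 63 + k' := ⟨j - 63, by omega⟩
      rw [if_neg hi', if_neg hj', Nat.add_sub_cancel_left, Nat.add_sub_cancel_left,
        H_special (by omega) (by omega)]
      constructor
      · rintro h1 ⟨rfl, rfl⟩
        exact hcen h1
      · exact hent k k' (by omega) (by omega)

/-- three-valued function -/
def tri (a b c : ℕ) : ℕ → ℕ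
  | 0 => a
  | 1 => b
  | _ => c

theorem use_core' (hh : 1 ≤ h) {M : Idx h → Idx h → Prop} {x : ℕ} {r c : ℕ → Idx h}
    (rep : Rep M x r c) (hno : ∀ f g, ¬ IsCopy M f g) (t : ℕ) (ht : t < 4 * h + 1)
    (s0 s1 s2 u0 u1 u2 : ℕ) (hs0 : s0 < 2 * h + 3) (hs1 : s1 < 2 * h + 3) (hs2 : s2 < 2 * h + 3)
    (hu0 : u0 < 2 * h + 3) (hu1 : u1 < 2 * h + 3) (hu2 : u2 < 2 * h + 3)
    (R0 : RT h t 0 s0 (r (Cn h + s0)).bt) (R1 : RT h t 1 s1 (r (Cn h + s1)).bt)
    (R2 : RT h t 2 s2 (r (Cn h + s2)).bt)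
    (C0 : CT h t 0 u0 (c (Cn h + u0)).bt) (C1 : CT h t 1 u1 (c (Cn h + u1)).bt)
    (C2 : CT h t 2 u2 (c (Cn h + u2)).bt)
    (o1 : r (Cn h + s0) < r (Cn h + s1)) (o2 : r (Cn h + s1) < r (Cn h + s2))
    (o3 : c (Cn h + u0) < c (Cn h + u1)) (o4 : c (Cn h + u1) < c (Cn h + u2))
    (e00 : M (r (Cn h + s0)) (c (Cn h + u0))) (e01 : M (r (Cn h + s0)) (c (Cn h + u1)))
    (e02 : M (r (Cn h + s0)) (c (Cn h + u2))) (e10 : M (r (Cn h + s1)) (c (Cn h + u0)))
    (e12 : M (r (Cn h + s1)) (c (Cn h + u2))) (e20 : M (r (Cn h + s2)) (c (Cn h + u0)))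
    (e21 : M (r (Cn h + s2)) (c (Cn h + u1))) (e22 : M (r (Cn h + s2)) (c (Cn h + u2))) :
    M (r (Cn h + s1)) (c (Cn h + u1)) := by
  refine use_core hh rep hno t ht (tri s0 s1 s2) (tri u0 u1 u2) ?_ ?_ ?_ ?_ o1 o2 o3 o4 ?_
  · intro k hk; interval_cases k <;> assumption
  · intro k hk; interval_cases k <;> assumption
  · intro k hk; interval_cases k <;> assumption
  · intro k hk; interval_cases k <;> assumption
  · intro k k' hk hk' hne
    interval_cases k <;> interval_cases k'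
    exacts [e00, e01, e02, e10, absurd ⟨rfl, rfl⟩ hne, e12, e20, e21, e22]

theorem fixed_true {M : Idx h → Idx h → Prop} {x : ℕ} {r c : ℕ → Idx h}
    (rep : Rep M x r c) (s s' : ℕ) (hs : s < 2 * h + 3) (hs' : s' < 2 * h + 3)
    (h0 : s = 0 ∨ s = 2 * h + 1 ∨ s' = 0 ∨ s' = 2 * h + 1) :
    M (r (Cn h + s)) (c (Cn h + s')) := by
  obtain ⟨hr, hc, hrx, hcx, hM⟩ := rep
  have hNB : NB h = Cn h + (2 * h + 3) := rfl
  rw [hM _ _ (by omega) (by omega) (by unfold isAdr; omega)]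
  unfold E
  rw [hr _ (by omega), hc _ (by omega), if_neg (by omega), if_neg (by omega)]
  left
  unfold Idx.lv
  rw [sg_of_blk hr s hs, sg_of_blk hc s' hs']
  have := lev_spec h s
  have := lev_spec h s'
  omega

theorem node_lt {x : ℕ} {q : ℕ → Idx h} (hq : ∀ β, β < NB h → (q β).blk = β)
    (hqx : ∀ β, isAdr h β → (q β).ix = x) (s s' : ℕ) (h1 : s < s') (h2 : s' ≤ 2 * h + 1) :
    q (Cn h + s) < q (Cn h + s') := by
  have hNB : NB h = Cn h + (2 * h + 3) := rfl
  have b1 := hq (Cn h + s) (by omega)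
  have b2 := hq (Cn h + s') (by omega)
  rw [lt_iff]
  have k1 := k_spec (q (Cn h + s))
  have k2 := k_spec (q (Cn h + s'))
  by_cases c1 : s = 0
  · omega
  · by_cases c2 : s' = 2 * h + 1
    · omega
    · have b3 := hqx (Cn h + s) (by unfold isAdr; omega)
      have b4 := hqx (Cn h + s') (by unfold isAdr; omega)
      omega

theorem node_bit {x : ℕ} {q : ℕ → Idx h} (hq : ∀ β, β < NB h → (q β).blk = β)
    (hqx : ∀ β, isAdr h β → (q β).ix = x) (l s : ℕ) (hl : l < h)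
    (hs : s = l + 1 ∨ s = 2 * h - l) : (q (Cn h + s)).bt = x / 2 ^ (h - (l + 1)) % 2 := by
  have b1 := sg_of_blk hq s (by omega)
  have b2 := lev_spec h s
  have b3 : lev h s = l + 1 := by omega
  unfold Idx.bt Idx.lv
  rw [ad_eq (by omega), b1, b3, hqx _ (by unfold isAdr; omega)]

theorem step_row (hh : 1 ≤ h) {M : Idx h → Idx h → Prop} {x : ℕ} {r c : ℕ → Idx h}
    (rep : Rep M x r c) (hno : ∀ f g, ¬ IsCopy M f g) (l : ℕ) (hl : l < h)
    (ih : ∀ s s', (s = l ∨ s = 2 * h + 1 - l) → (s' = l ∨ s' = 2 * h + 1 - l) →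
      M (r (Cn h + s)) (c (Cn h + s'))) (s s' : ℕ) (hs : s = l + 1 ∨ s = 2 * h - l)
    (hs' : s' = l ∨ s' = 2 * h + 1 - l) : M (r (Cn h + s)) (c (Cn h + s')) := by
  rcases Nat.eq_zero_or_pos l with rfl | hl0
  · exact fixed_true rep s s' (by omega) (by omega) (by omega)
  · have d1 : 4 * l / 4 = l := by omega
    have d2 : 4 * l % 4 = 0 := by omega
    have d3 : 4 * l < 4 * h := by omega
    exact use_core' hh rep hno (4 * l) (by omega) l s (2 * h + 1 - l) 0 s' (2 * h + 1)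
      (by omega) (by omega) (by omega) (by omega) (by omega) (by omega)
      (Or.inr (Or.inl ⟨d3, d2, Or.inl ⟨rfl, d1.symm⟩⟩))
      (Or.inr (Or.inl ⟨d3, d2, Or.inr (Or.inr ⟨rfl, by rw [d1]; exact hs⟩)⟩))
      (Or.inr (Or.inl ⟨d3, d2, Or.inr (Or.inl ⟨rfl, by rw [d1]⟩)⟩))
      (Or.inr (Or.inr (Or.inl ⟨d3, d2, Or.inl ⟨rfl, rfl⟩⟩)))
      (Or.inr (Or.inr (Or.inl ⟨d3, d2, Or.inr (Or.inr ⟨rfl, by rw [d1]; exact ⟨hl0, hs'⟩⟩)⟩)))
      (Or.inr (Or.inr (Or.inl ⟨d3, d2, Or.inr (Or.inl ⟨rfl, rfl⟩)⟩)))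
      (node_lt rep.hr rep.hrx _ _ (by omega) (by omega))
      (node_lt rep.hr rep.hrx _ _ (by omega) (by omega))
      (node_lt rep.hc rep.hcx _ _ (by omega) (by omega))
      (node_lt rep.hc rep.hcx _ _ (by omega) (by omega))
      (fixed_true rep _ _ (by omega) (by omega) (by omega))
      (ih _ _ (Or.inl rfl) hs')
      (fixed_true rep _ _ (by omega) (by omega) (by omega))
      (fixed_true rep _ _ (by omega) (by omega) (by omega))
      (fixed_true rep _ _ (by omega) (by omega) (by omega))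
      (fixed_true rep _ _ (by omega) (by omega) (by omega))
      (ih _ _ (Or.inr rfl) hs')
      (fixed_true rep _ _ (by omega) (by omega) (by omega))

theorem step_col (hh : 1 ≤ h) {M : Idx h → Idx h → Prop} {x : ℕ} {r c : ℕ → Idx h}
    (rep : Rep M x r c) (hno : ∀ f g, ¬ IsCopy M f g) (l : ℕ) (hl : l < h)
    (ih : ∀ s s', (s = l ∨ s = 2 * h + 1 - l) → (s' = l ∨ s' = 2 * h + 1 - l) →
      M (r (Cn h + s)) (c (Cn h + s'))) (s s' : ℕ) (hs : s = l ∨ s = 2 * h + 1 - l)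
    (hs' : s' = l + 1 ∨ s' = 2 * h - l) : M (r (Cn h + s)) (c (Cn h + s')) := by
  rcases Nat.eq_zero_or_pos l with rfl | hl0
  · exact fixed_true rep s s' (by omega) (by omega) (by omega)
  · have d1 : (4 * l + 1) / 4 = l := by omega
    have d2 : (4 * l + 1) % 4 = 1 := by omega
    have d3 : 4 * l + 1 < 4 * h := by omega
    exact use_core' hh rep hno (4 * l + 1) (by omega) 0 s (2 * h + 1) l s' (2 * h + 1 - l)
      (by omega) (by omega) (by omega) (by omega) (by omega) (by omega)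
      (Or.inr (Or.inr (Or.inl ⟨d3, d2, Or.inl ⟨rfl, rfl⟩⟩)))
      (Or.inr (Or.inr (Or.inl ⟨d3, d2, Or.inr (Or.inr ⟨rfl, by rw [d1]; exact ⟨hl0, hs⟩⟩)⟩)))
      (Or.inr (Or.inr (Or.inl ⟨d3, d2, Or.inr (Or.inl ⟨rfl, rfl⟩)⟩)))
      (Or.inr (Or.inl ⟨d3, d2, Or.inl ⟨rfl, d1.symm⟩⟩))
      (Or.inr (Or.inl ⟨d3, d2, Or.inr (Or.inr ⟨rfl, by rw [d1]; exact hs'⟩)⟩))
      (Or.inr (Or.inl ⟨d3, d2, Or.inr (Or.inl ⟨rfl, by rw [d1]⟩)⟩))
      (node_lt rep.hr rep.hrx _ _ (by omega) (by omega))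
      (node_lt rep.hr rep.hrx _ _ (by omega) (by omega))
      (node_lt rep.hc rep.hcx _ _ (by omega) (by omega))
      (node_lt rep.hc rep.hcx _ _ (by omega) (by omega))
      (fixed_true rep _ _ (by omega) (by omega) (by omega))
      (fixed_true rep _ _ (by omega) (by omega) (by omega))
      (fixed_true rep _ _ (by omega) (by omega) (by omega))
      (ih _ _ hs (Or.inl rfl))
      (ih _ _ hs (Or.inr rfl))
      (fixed_true rep _ _ (by omega) (by omega) (by omega))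
      (fixed_true rep _ _ (by omega) (by omega) (by omega))
      (fixed_true rep _ _ (by omega) (by omega) (by omega))

theorem step_both (hh : 1 ≤ h) {M : Idx h → Idx h → Prop} {x : ℕ} {r c : ℕ → Idx h}
    (rep : Rep M x r c) (hno : ∀ f g, ¬ IsCopy M f g) (l : ℕ) (hl : l < h)
    (ih : ∀ s s', (s = l ∨ s = 2 * h + 1 - l) → (s' = l ∨ s' = 2 * h + 1 - l) →
      M (r (Cn h + s)) (c (Cn h + s'))) (s s' : ℕ) (hs : s = l + 1 ∨ s = 2 * h - l)
    (hs' : s' = l + 1 ∨ s' = 2 * h - l) : M (r (Cn h + s)) (c (Cn h + s')) := by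
  have hb1 := node_bit rep.hr rep.hrx l s hl hs
  have hb2 := node_bit rep.hc rep.hcx l s' hl hs'
  obtain ⟨b, hb⟩ : ∃ b, b = x / 2 ^ (h - (l + 1)) % 2 := ⟨_, rfl⟩
  have hb3 : b < 2 := by rw [hb]; exact Nat.mod_lt _ (by norm_num)
  rw [← hb] at hb1 hb2
  clear hb
  have d1 : (4 * l + 2 + b) / 4 = l := by omega
  have d2 : 2 ≤ (4 * l + 2 + b) % 4 := by omega
  have d3 : 4 * l + 2 + b < 4 * h := by omega
  have d4 : b + 2 = (4 * l + 2 + b) % 4 := by omega
  exact use_core' hh rep hno (4 * l + 2 + b) (by omega) l s (2 * h + 1 - l) l s' (2 * h + 1 - l)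
    (by omega) (by omega) (by omega) (by omega) (by omega) (by omega)
    (Or.inr (Or.inr (Or.inr ⟨d3, d2, Or.inl ⟨rfl, d1.symm⟩⟩)))
    (Or.inr (Or.inr (Or.inr ⟨d3, d2, Or.inr (Or.inr ⟨rfl, by rw [d1]; exact hs,
      by rw [hb1]; exact d4⟩)⟩)))
    (Or.inr (Or.inr (Or.inr ⟨d3, d2, Or.inr (Or.inl ⟨rfl, by rw [d1]⟩)⟩)))
    (Or.inr (Or.inr (Or.inr ⟨d3, d2, Or.inl ⟨rfl, d1.symm⟩⟩)))
    (Or.inr (Or.inr (Or.inr ⟨d3, d2, Or.inr (Or.inr ⟨rfl, by rw [d1]; exact hs',
      by rw [hb2]; exact d4⟩)⟩)))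
    (Or.inr (Or.inr (Or.inr ⟨d3, d2, Or.inr (Or.inl ⟨rfl, by rw [d1]⟩)⟩)))
    (node_lt rep.hr rep.hrx _ _ (by omega) (by omega))
    (node_lt rep.hr rep.hrx _ _ (by omega) (by omega))
    (node_lt rep.hc rep.hcx _ _ (by omega) (by omega))
    (node_lt rep.hc rep.hcx _ _ (by omega) (by omega))
    (ih _ _ (Or.inl rfl) (Or.inl rfl))
    (step_col hh rep hno l hl ih _ _ (Or.inl rfl) hs')
    (ih _ _ (Or.inl rfl) (Or.inr rfl))
    (step_row hh rep hno l hl ih _ _ hs (Or.inl rfl))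
    (step_row hh rep hno l hl ih _ _ hs (Or.inr rfl))
    (ih _ _ (Or.inr rfl) (Or.inl rfl))
    (step_col hh rep hno l hl ih _ _ (Or.inr rfl) hs')
    (ih _ _ (Or.inr rfl) (Or.inr rfl))

/-- The forcing argument. `r β`, `c β` are the chosen representatives of the blocks. -/
theorem forcing (hh : 1 ≤ h) {M : Idx h → Idx h → Prop} {x : ℕ} {r c : ℕ → Idx h}
    (rep : Rep M x r c) : ∃ f g, IsCopy M f g := by
  by_contra hno
  push Not at hno
  have hNB : NB h = Cn h + (2 * h + 3) := rfl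
  have P : ∀ l, l ≤ h → ∀ s s', (s = l ∨ s = 2 * h + 1 - l) → (s' = l ∨ s' = 2 * h + 1 - l) →
      M (r (Cn h + s)) (c (Cn h + s')) := by
    intro l
    induction l with
    | zero =>
      intro _ s s' hs hs'
      exact fixed_true rep s s' (by omega) (by omega) (by omega)
    | succ l ih =>
      intro hl s s' hs hs'
      exact step_both hh rep hno l hl (ih (by omega)) s s' (by omega) (by omega)
  have fin := use_core' hh rep hno (4 * h) (by omega) h (2 * h + 2) (2 * h + 1) 0 h (2 * h + 1)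
    (by omega) (by omega) (by omega) (by omega) (by omega) (by omega)
    (Or.inl ⟨rfl, Or.inl ⟨rfl, rfl⟩⟩) (Or.inl ⟨rfl, Or.inr (Or.inl ⟨rfl, rfl⟩)⟩)
    (Or.inl ⟨rfl, Or.inr (Or.inr ⟨rfl, rfl⟩)⟩)
    (Or.inl ⟨rfl, Or.inl ⟨rfl, rfl⟩⟩) (Or.inl ⟨rfl, Or.inr (Or.inl ⟨rfl, rfl⟩)⟩)
    (Or.inl ⟨rfl, Or.inr (Or.inr ⟨rfl, rfl⟩)⟩)
    (by
      have b1 := rep.hr (Cn h + h) (by omega)
      have b2 := rep.hr (Cn h + (2 * h + 2)) (by omega)
      rw [lt_iff]
      have := k_spec (r (Cn h + h))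
      have := k_spec (r (Cn h + (2 * h + 2)))
      omega)
    (by
      have b1 := rep.hr (Cn h + (2 * h + 1)) (by omega)
      have b2 := rep.hr (Cn h + (2 * h + 2)) (by omega)
      rw [lt_iff]
      have := k_spec (r (Cn h + (2 * h + 1)))
      have := k_spec (r (Cn h + (2 * h + 2)))
      omega)
    (node_lt rep.hc rep.hcx _ _ (by omega) (by omega))
    (node_lt rep.hc rep.hcx _ _ (by omega) (by omega))
    (fixed_true rep _ _ (by omega) (by omega) (by omega))
    (P h le_rfl _ _ (Or.inl rfl) (Or.inl rfl))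
    (fixed_true rep _ _ (by omega) (by omega) (by omega))
    (fixed_true rep _ _ (by omega) (by omega) (by omega))
    (fixed_true rep _ _ (by omega) (by omega) (by omega))
    (fixed_true rep _ _ (by omega) (by omega) (by omega))
    (fixed_true rep _ _ (by omega) (by omega) (by omega))
    (fixed_true rep _ _ (by omega) (by omega) (by omega))
  obtain ⟨hr, hc, hrx, hcx, hM⟩ := rep
  have hrs := sg_of_blk hr
  have hcs := sg_of_blk hc
  clear P
  rw [hM _ _ (by omega) (by omega) (by unfold isAdr; omega)] at fin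
  unfold E at fin
  rw [hr _ (by omega), hc _ (by omega), if_neg (by omega), if_neg (by omega)] at fin
  unfold comp Idx.lv at fin
  rw [ad_eq (a := c (Cn h + h)) (by rw [hcs _ (by omega)]; omega)] at fin
  unfold Idx.ad adr at fin
  rw [hrs _ (by omega), hcs _ (by omega), if_pos rfl] at fin
  have l1 := lev_spec h (2 * h + 2)
  have l2 := lev_spec h h
  have m1 : min (lev h (2 * h + 2)) (lev h h) = h := by omega
  rw [m1] at fin
  have := (c (Cn h + h)).ix_lt
  rcases fin with fin | fin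
  · omega
  · simp at fin
    omega

end Crest.Agent.R47
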