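import Crest.Agent.R47.Host
import Crest.Prelude.Def_OrderedMatrix

/-!
Row 47 (S0066): transfer to `Fin n`, counting and farness.
-/

set_option autoImplicit false

namespace Crest.Agent.R47

open Crest.CombinatoricsR.OrderedMatrix

variable {h n : ℕ}

/-- the pattern on `Fin 66` -/
def HF (i j : Fin 66) : Bool := H i j

open Classical in
/-- the host matrix on `Fin n` -/
noncomputable def host (e : Idx h ↪o Fin n) (r c : Fin n) : Bool :=
  decide (∃ a b, e a = r ∧ e b = c ∧ E (RT h) (CT h) a b)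

theorem host_apply (e : Idx h ↪o Fin n) (a b : Idx h) :
    host e (e a) (e b) = true ↔ E (RT h) (CT h) a b := by
  classical
  unfold host
  rw [decide_eq_true_iff]
  constructor
  · rintro ⟨a', b', h1, h2, h3⟩
    rwa [e.injective h1, e.injective h2] at h3
  · intro h3
    exact ⟨a, b, rfl, rfl, h3⟩

theorem host_range (e : Idx h ↪o Fin n) {r c : Fin n} (hrc : host e r c = true) :
    (∃ a, e a = r) ∧ ∃ b, e b = c := by
  classical
  unfold host at hrc
  rw [decide_eq_true_iff] at hrc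
  obtain ⟨a, b, h1, h2, -⟩ := hrc
  exact ⟨⟨a, h1⟩, b, h2⟩

theorem NB_pos (h : ℕ) : Cn h + h < NB h := by unfold NB; omega

/-- the diagonal node of address `x` -/
def diag (h : ℕ) (x : Fin (2 ^ h)) : Idx h := (⟨Cn h + h, NB_pos h⟩, x)

theorem count_le (hh : 1 ≤ h) (e : Idx h ↪o Fin n) :
    orderedCopyCount HF (host e) ≤ 2 ^ h * (n ^ 65 * n ^ 65) := by
  classical
  unfold orderedCopyCount
  let G : Fin (2 ^ h) × (Fin 65 → Fin n) × (Fin 65 → Fin n) →
      (Fin 66 → Fin n) × (Fin 66 → Fin n) := fun p =>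
    (Fin.insertNth (α := fun _ => Fin n) (63 : Fin 66) (e (diag h p.1)) p.2.1,
      Fin.insertNth (α := fun _ => Fin n) (64 : Fin 66) (e (diag h p.1)) p.2.2)
  rw [Fintype.card_subtype]
  have hcard : Fintype.card (Fin (2 ^ h) × (Fin 65 → Fin n) × (Fin 65 → Fin n)) =
      2 ^ h * (n ^ 65 * n ^ 65) := by simp
  rw [← hcard, ← Finset.card_univ]
  refine le_trans (Finset.card_le_card ?_) (Finset.card_image_le (f := G))
  rintro ⟨ρ, γ⟩ hrc
  simp only [Finset.mem_filter, Finset.mem_univ, true_and] at hrc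
  obtain ⟨h1, h2, h3⟩ := hrc
  have hρ : ∀ i, ∃ a, e a = ρ i := fun i =>
    (host_range e (c := γ 0) (by rw [h3]; exact H_zero_right _)).1
  have hγ : ∀ j, ∃ b, e b = γ j := fun j =>
    (host_range e (r := ρ 0) (by rw [h3]; exact H_zero_left _)).2
  choose f hf using hρ
  choose g hg using hγ
  have hcopy : IsCopy (E (RT h) (CT h)) (fun i => f (Fin.ofNat 66 i)) (fun j => g (Fin.ofNat 66 j)) := by
    refine ⟨fun i j hij hj => ?_, fun i j hij hj => ?_, fun i j hi hj => ?_⟩
    · rw [← e.lt_iff_lt, hf, hf]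
      apply h1
      simp only [Fin.lt_def, Fin.val_ofNat]
      rwa [Nat.mod_eq_of_lt hj, Nat.mod_eq_of_lt (by omega)]
    · rw [← e.lt_iff_lt, hg, hg]
      apply h2
      simp only [Fin.lt_def, Fin.val_ofNat]
      rwa [Nat.mod_eq_of_lt hj, Nat.mod_eq_of_lt (by omega)]
    · rw [← host_apply e, hf, hg, h3]
      unfold HF
      simp only [Fin.val_ofNat]
      rw [Nat.mod_eq_of_lt hj, Nat.mod_eq_of_lt hi]
  obtain ⟨d1, d2, d3⟩ := copy_diag hh hcopy
  change (f 63).blk = _ at d1
  change (g 64).blk = _ at d2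
  change (f 63).ix = (g 64).ix at d3
  have e1 : diag h (f 63).2 = f 63 := Idx.ext' d1.symm rfl
  have e2 : diag h (f 63).2 = g 64 := Idx.ext' d2.symm d3
  rw [Finset.mem_image]
  refine ⟨((f 63).2, Fin.removeNth (63 : Fin 66) ρ, Fin.removeNth (64 : Fin 66) γ),
    Finset.mem_univ _, ?_⟩
  simp only [G]
  rw [Prod.mk.injEq]
  constructor
  · rw [e1, hf]
    exact Fin.insertNth_self_removeNth (α := fun _ => Fin n) (63 : Fin 66) ρ
  · rw [e2, hg]
    exact Fin.insertNth_self_removeNth (α := fun _ => Fin n) (64 : Fin 66) γ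

theorem NB_ne (h : ℕ) : 0 < NB h := by unfold NB; omega

instance (h : ℕ) : NeZero (NB h) := ⟨(NB_ne h).ne'⟩

open Classical in
/-- row representatives of the system `(x, a)` -/
noncomputable def rowRep (x a : Fin (2 ^ h)) (β : ℕ) : Idx h :=
  (Fin.ofNat (NB h) β, if isAdr h β then x else x + a)

open Classical in
/-- column representatives of the system `(x, a)` -/
noncomputable def colRep (x a : Fin (2 ^ h)) (β : ℕ) : Idx h :=
  (Fin.ofNat (NB h) β, if isAdr h β then x else a)

theorem far (hh : 1 ≤ h) (e : Idx h ↪o Fin n) (B : Fin n → Fin n → Bool)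
    (hB : orderedCopyCount HF B = 0) :
    2 ^ h * 2 ^ h ≤ (Finset.univ.filter (fun rc : Fin n × Fin n =>
      host e rc.1 rc.2 ≠ B rc.1 rc.2)).card := by
  classical
  have hr : ∀ (x a : Fin (2 ^ h)) β, β < NB h → (rowRep x a β).blk = β := by
    intro x a β hβ
    exact Nat.mod_eq_of_lt hβ
  have hc : ∀ (x a : Fin (2 ^ h)) β, β < NB h → (colRep x a β).blk = β := by
    intro x a β hβ
    exact Nat.mod_eq_of_lt hβ
  have key : ∀ p : Fin (2 ^ h) × Fin (2 ^ h), ∃ q : ℕ × ℕ, q.1 < NB h ∧ q.2 < NB h ∧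
      ¬ (isAdr h q.1 ∧ isAdr h q.2) ∧
      host e (e (rowRep p.1 p.2 q.1)) (e (colRep p.1 p.2 q.2)) ≠
        B (e (rowRep p.1 p.2 q.1)) (e (colRep p.1 p.2 q.2)) := by
    rintro ⟨x, a⟩
    by_contra hno
    have rep : Rep (fun u v => B (e u) (e v) = true) x (rowRep x a) (colRep x a) := by
      refine ⟨hr x a, hc x a, fun β hβ => ?_, fun β hβ => ?_, fun β β' h1 h2 h3 => ?_⟩
      · simp [rowRep, Idx.ix, hβ]
      · simp [colRep, Idx.ix, hβ]
      · rw [← host_apply e]
        by_contra hne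
        apply hno
        refine ⟨(β, β'), h1, h2, h3, fun heq => hne ?_⟩
        simp only at heq
        rw [heq]
    obtain ⟨f, g, hcopy⟩ := forcing hh rep
    unfold orderedCopyCount at hB
    rw [Fintype.card_eq_zero_iff] at hB
    refine hB.elim ⟨(fun i => e (f i), fun j => e (g j)), ?_, ?_, ?_⟩
    · intro i j hij
      exact e.strictMono (hcopy.mf i j hij j.2)
    · intro i j hij
      exact e.strictMono (hcopy.mg i j hij j.2)
    · intro i j
      have := hcopy.ent i j i.2 j.2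
      rw [Bool.eq_iff_iff]
      exact this
  choose q hq using key
  have hcard : Fintype.card (Fin (2 ^ h) × Fin (2 ^ h)) = 2 ^ h * 2 ^ h := by simp
  rw [← hcard, ← Finset.card_univ]
  refine Finset.card_le_card_of_injOn
    (fun p => (e (rowRep p.1 p.2 (q p).1), e (colRep p.1 p.2 (q p).2))) ?_ ?_
  · intro p _
    simp only [Finset.coe_filter, Finset.mem_univ, true_and, Set.mem_ofPred_eq]
    exact (hq p).2.2.2
  · rintro ⟨x, a⟩ - ⟨x', a'⟩ - heq
    simp only [Prod.mk.injEq, EmbeddingLike.apply_eq_iff_eq] at heq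
    obtain ⟨e1, e2⟩ := heq
    obtain ⟨p1, p2, p3, -⟩ := hq (x, a)
    obtain ⟨p1', p2', -, -⟩ := hq (x', a')
    have b1 : (q (x, a)).1 = (q (x', a')).1 := by
      rw [← hr x a _ p1, e1, hr x' a' _ p1']
    have b2 : (q (x, a)).2 = (q (x', a')).2 := by
      rw [← hc x a _ p2, e2, hc x' a' _ p2']
    rw [← b1] at e1
    rw [← b2] at e2
    have i1 := congrArg Prod.snd e1
    have i2 := congrArg Prod.snd e2
    simp only [rowRep, colRep] at i1 i2
    by_cases c1 : isAdr h (q (x, a)).1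
    · have c2 : ¬ isAdr h (q (x, a)).2 := fun c2 => p3 ⟨c1, c2⟩
      rw [if_pos c1, if_pos c1] at i1
      rw [if_neg c2, if_neg c2] at i2
      rw [i1, i2]
    · rw [if_neg c1, if_neg c1] at i1
      by_cases c2 : isAdr h (q (x, a)).2
      · rw [if_pos c2, if_pos c2] at i2
        subst i2
        rw [add_left_cancel i1]
      · rw [if_neg c2, if_neg c2] at i2
        subst i2
        rw [add_right_cancel i1]

theorem exists_emb (hh : 1 ≤ h) : Nonempty (Idx h ↪o Fin ((386 * h + 2) * 2 ^ h)) := by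
  have hle : Fintype.card (Idx h) ≤ (386 * h + 2) * 2 ^ h := by
    rw [card_Idx]
    apply Nat.mul_le_mul_right
    unfold NB Cn
    omega
  exact ⟨((Fintype.orderIsoFinOfCardEq (Idx h) rfl).symm.toOrderEmbedding).trans
    (Fin.castLEOrderEmb hle)⟩

end Crest.Agent.R47
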